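import Vale.Agent.P352NA.PF.AH
import Vale.Agent.P352L.Api1C
import Vale.Agent.P352L.Spec2

/-!
# P352L, block PF: covariant distributions, symmetries, families (port of P352NA/PF)
-/

set_option linter.all false

open MeasureTheory Measure Set Filter Topology
open scoped SchwartzMap ComplexConjugate NNReal ENNReal

namespace Vale.Agent.P352L.Pf

open Vale.Agent.P352X
open Vale.Agent.P352 Vale.Agent.P352.GF Vale.Agent.P352.BW Vale.Agent.P352.H496
open Vale.Agent.P352.H755 Vale.Agent.P352.H15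
open Vale.Agent.P352.H246 (In)
open Vale.Agent.P352NA.PF (AL Gen gen_of_eq)
open UniformSpace (Completion)
open Complex (I)
open Vale.Agent.P352X.TPD (TT)
open Vale.Agent.P352X.CA (Cn Nl Z0 e0)
open Vale.Agent.P352X.KDa (dS mS barL)
open Vale.Agent.P352X.G1 (Hs)
open Vale.Agent.P352X.Two (sq2 g0 gS g0_in g0_ne cont_k meas_sq2 bd_ft ftp ftp_apply wd_sq2 sq2_one)
open Real (exp)

export Vale.Agent.P352X.Pf (Ad BD Fl HD KS KS_apply KS_nu KY KY_apply KY_b Nu Nu_d Nu_m Nu_z XM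
  XS ac ac_ac ac_apply ac_mul as_ext bar_KS bar_apply bar_bar bar_mS bar_smul bar_tsl cK_eq
  cont_of_bd cs_pL cs_tsl dS_apply dS_mS der_aff der_pL der_tsl dr eA eB eG eG_apply eS eS_apply
  ev_KS ev_ad ev_xg ex_one ext_cs fd_coord fd_map fd_mem hs_ne hs_open mS_add mS_smul mS_sum
  mS_tsl mem_Nu mem_rc mu1 mu1_apply pL pL_apply pL_mS pL_tsl pj rc_ne rc_open rc_shift rc_sub
  slope_vl sqrt_ed sqrt_ee supp_KS supp_bar supp_mS supp_mu1 supp_pL supp_tsl supp_vS tsl_mS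
  tsl_tsl tsl_zero ug_as vS vS_apply vl vl_inj xL xL_apply)

noncomputable section

section

variable {D : Type*} [NormedAddCommGroup D] [InnerProductSpace ℂ D] {c : Ctx D}

/-- the two point measure -/
def rho (c : Ctx D) (v : Completion D) : Measure V :=
  (c.nu v).withDensity (sq2 fun p => (ft g0 p)⁻¹)

lemma nu_eq {v w : Completion D} {F : V → ℂ} (hF : SN.Bd F)
    (h : c.bt.Phi (ft g0) w = c.bt.Phi F v) : c.nu w = (rho c v).withDensity (sq2 F) := by
  have e := congrArg (fun u => (c.nu u).withDensity (sq2 fun p => (ft g0 p)⁻¹)) h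
  simp only [Base.nu, c.bt.nu_Phi hF, c.bt.nu_Phi (bd_ft g0_in.1)] at e
  change (withDensity _ (sq2 _)).withDensity _ = (withDensity _ (sq2 _)).withDensity _ at e
  rw [wd_sq2 _ (bd_ft g0_in.1).1 cont_k.measurable, wd_sq2 _ hF.1 cont_k.measurable] at e
  simp only [mul_inv_cancel₀ (g0_ne _), sq2_one, withDensity_one] at e
  rw [rho, wd_sq2 _ cont_k.measurable hF.1, Base.nu, e]
  simp only [mul_comm]

/-- the basic relation for tempered translation covariant distributions -/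
theorem rel_clm (Λ : Sch →L[ℂ] Completion D) {f g : Sch} {u v : Completion D}
    (hu : ∀ y, g y ≠ 0 → Λ (ST.tsl y f) = Ut c.Q y u)
    (hv : ∀ y, f y ≠ 0 → Λ (ST.tsl y g) = Ut c.Q y v) :
    c.bt.Phi (ft (ev g)) u = c.bt.Phi (ft (ev f)) v := by
  have key : ∀ {f g : Sch} {u : Completion D}, (∀ y, g y ≠ 0 → Λ (ST.tsl y f) = Ut c.Q y u) →
      c.bt.Phi (ft (ev g)) u = Λ (ST.cnv volume g f) := fun {f g u} hu => by
    rw [(ST.clm_cnv Λ g f).2]
    refine (c.bt.smear SN.isPair_mdot continuous_id g.integrable u).2.symm.trans ?_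
    refine integral_congr_ae (.of_forall fun y => ?_)
    by_cases hy : g y = 0
    · simp [hy]
    · simp [hu y hy]
  rw [key hu, key hv, ST.cnv_comm]

end

section

variable {D : Type*} [NormedAddCommGroup D] [InnerProductSpace ℂ D] {c : Ctx D} {φ : TT D}

/-- translation covariance -/
def TC (c : Ctx D) (φ : TT D) : Prop := ∀ a f, Ut c.Q a (φ f) = φ (ST.tsl a f)

namespace TC

theorem zero : TC c 0 := fun _ _ => by simp

theorem add {ψ : TT D} (h : TC c φ) (h' : TC c ψ) : TC c (φ + ψ) := fun a f => by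
  simp [h a f, h' a f]

theorem smul (z : ℂ) (h : TC c φ) : TC c (z • φ) := fun a f => by simp [h a f]

theorem sub {ψ : TT D} (h : TC c φ) (h' : TC c ψ) : TC c (φ - ψ) := fun a f => by
  simp [h a f, h' a f]

theorem rel (h : TC c φ) (f g : Sch) :
    c.bt.Phi (ft (ev g)) (φ f) = c.bt.Phi (ft (ev f)) (φ g) :=
  rel_clm φ (fun y _ => (h y f).symm) fun y _ => (h y g).symm

theorem lint (h : TC c φ) (f : Sch) :
    ∫⁻ p, sq2 (ft (ev f)) p ∂rho c (φ gS) = ENNReal.ofReal (‖φ f‖ ^ 2) := by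
  rw [← c.bt.nu_univ, ofReal_measureReal,
    show c.bt.nu (φ f) = _ from nu_eq (bd_ft ⟨f, rfl⟩) (h.rel f gS),
    withDensity_apply _ MeasurableSet.univ, restrict_univ]

theorem cone (b : BAS c.toBase) (v : Completion D) : ∀ᵐ p ∂rho c v, p ∈ Cn :=
  withDensity_absolutelyContinuous _ _ (b.cone v)

theorem mono (b : BAS c.toBase) (h : TC c φ) {f g : Sch} {C : ℝ} (hC : 0 ≤ C)
    (e : ∀ p ∈ Cn, ‖ft (ev f) p‖ ≤ C * ‖ft (ev g) p‖) : ‖φ f‖ ≤ C * ‖φ g‖ := by
  have a : ENNReal.ofReal (‖φ f‖ ^ 2) ≤ ENNReal.ofReal (C ^ 2) * ENNReal.ofReal (‖φ g‖ ^ 2) := by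
    rw [← h.lint f, ← h.lint g, ← lintegral_const_mul _ (meas_sq2 (bd_ft ⟨g, rfl⟩).1)]
    refine lintegral_mono_ae ((cone b _).mono fun p hp => ?_)
    rw [sq2, sq2, ← ENNReal.ofReal_mul (by positivity), ← mul_pow]
    exact ENNReal.ofReal_le_ofReal (pow_le_pow_left₀ (norm_nonneg _) (e p hp) 2)
  rw [← ENNReal.ofReal_mul (by positivity), ENNReal.ofReal_le_ofReal_iff (by positivity),
    ← mul_pow] at a
  exact (pow_le_pow_iff_left₀ (norm_nonneg _) (by positivity) two_ne_zero).1 a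

theorem nu (b : BAS c.toBase) (h : TC c φ) {f : Sch} (hf : f ∈ Nu) : φ f = 0 := by
  have := h.mono b (f := f) (g := f) le_rfl fun p hp => by
    rw [mem_Nu.1 hf p hp, norm_zero, mul_zero]
  rw [zero_mul] at this
  exact norm_le_zero_iff.1 this

theorem congr (b : BAS c.toBase) (h : TC c φ) {f g : Sch} (hf : f - g ∈ Nu) : φ f = φ g := by
  have := h.nu b hf
  rwa [map_sub, sub_eq_zero] at this

theorem inj (b : BAS c.toBase) (h : TC c φ) {f0 : Sch} (h0 : Z0 (ev f0)) (e : φ f0 = 0) : φ = 0 := by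
  have a := h.lint f0
  rw [e, norm_zero, zero_pow two_ne_zero, ENNReal.ofReal_zero,
    lintegral_eq_zero_iff (meas_sq2 (bd_ft ⟨f0, rfl⟩).1)] at a
  have z : rho c (φ gS) = 0 := by
    refine ae_eq_bot.1 (eventually_false_iff_eq_bot.1 ?_)
    filter_upwards [a, cone b (φ gS)] with p h1 h2
    rw [sq2, h0 p h2] at h1
    exact (ENNReal.ofReal_pos.2 (pow_pos (norm_pos_iff.2 (Complex.exp_ne_zero _)) 2)).ne' h1
  ext1 g
  have := h.lint g
  rw [z, lintegral_zero_measure, eq_comm, ENNReal.ofReal_eq_zero] at this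
  exact norm_eq_zero.1 (pow_eq_zero_iff two_ne_zero |>.1 (le_antisymm this (by positivity)))

/-- contraction along `b` costs at most the factor `s ^ (-2)` -/
theorem scal (b : BAS c.toBase) (h : TC c φ) {f0 g : Sch} (h0 : Z0 (ev f0)) {s : ℝ} (s0 : 0 < s)
    (s1 : s ≤ 1) (e : ∀ z, g z = f0 (scp 1 s z)) : ‖φ g‖ ≤ (s ^ 2)⁻¹ * ‖φ f0‖ := by
  refine h.mono b (by positivity) fun p hp => ?_
  have hp' := (cone_iff p).1 hp
  have hq : scp s⁻¹ 1⁻¹ p ∈ Cn := by
    refine (cone_iff _).2 ⟨by simpa using mul_nonneg (inv_pos.2 s0).le hp'.1, by simpa using hp'.2.1, ?_⟩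
    simp only [tx_scp, al_scp, be_scp, d2_smul, d2_smul_l, ← mul_assoc, inv_one, mul_one, one_mul,
      Real.mul_self_sqrt (inv_pos.2 s0).le]
    nlinarith [hp'.2.2, inv_pos.2 s0]
  rw [show ev g = fun z => ev f0 (scp 1 s z) from funext e, ft_scp one_pos s0, norm_mul, one_mul,
    Complex.norm_real, Real.norm_of_nonneg (by positivity), h0 _ hq, h0 p hp, Complex.norm_exp,
    Complex.norm_exp]
  refine mul_le_mul_of_nonneg_left (Real.exp_le_exp.2 ?_) (by positivity)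
  simp only [Complex.neg_re, Complex.ofReal_re, time_eq, al_scp, be_scp, inv_one, one_mul]
  nlinarith [hp'.1, (one_le_inv₀ s0).2 s1]

/-- a translation covariant distribution that vanishes on an open set vanishes -/
theorem van (h : TC c φ) {O : Set V} (hO : IsOpen O) (hn : O.Nonempty)
    (e : ∀ f : Sch, HasCompactSupport f → tsupport f ⊆ O → φ f = 0) : φ = 0 := by
  obtain ⟨y, hy⟩ := hn
  obtain ⟨δ, δ0, hδ⟩ := Metric.isOpen_iff.1 hO y hy
  ext1 g
  refine ST.vanish_local φ g fun q _ => ⟨δ, δ0, fun f hf => ?_⟩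
  have k : tsupport (ST.tsl (y - q) f) ⊆ Metric.ball y δ := fun z hz => by
    have := hf (tsupport_comp_subset_preimage f (continuous_sub_right (y - q)) hz)
    rw [Metric.mem_ball, dist_eq_norm] at this ⊢
    rwa [show z - y = z - (y - q) - q by abel]
  have z := e _ ((isCompact_closedBall y δ).of_isClosed_subset (isClosed_tsupport _)
    (k.trans Metric.ball_subset_closedBall)) (k.trans hδ)
  have := h (q - y) (ST.tsl (y - q) f)
  rw [z, map_zero] at this
  rw [this]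
  congr 1
  ext z
  simp [ST.tsl_apply]

end TC

end

section

variable {D : Type*} [NormedAddCommGroup D] [InnerProductSpace ℂ D] {c : Ctx D}

/-- distributions on test functions with compact support -/
structure Loc0 (c : Ctx D) (ψ : Sch → Completion D) : Prop where
  add : ∀ f g : Sch, HasCompactSupport f → HasCompactSupport g → ψ (f + g) = ψ f + ψ g
  smul : ∀ (a : ℂ) (f : Sch), HasCompactSupport f → ψ (a • f) = a • ψ f
  tra : ∀ a (f : Sch), HasCompactSupport f → Ut c.Q a (ψ f) = ψ (ST.tsl a f)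
  bd : ∀ K, IsCompact K → BD K fun f => ‖ψ f‖

theorem Loc0.cut {ψ : Sch → Completion D} (h : Loc0 c ψ) {χ : Sch} (hχ : HasCompactSupport χ) :
    ∃ Λ : TT D, ∀ f, Λ f = ψ (mu1 χ f) := by
  have k : ∀ f, HasCompactSupport (mu1 χ f) := fun f =>
    hχ.of_isClosed_subset (isClosed_tsupport _) (supp_mu1 χ f)
  obtain ⟨q, q1, q2, hC⟩ := h.bd _ hχ
  let L : Sch →ₗ[ℂ] Completion D := ⟨⟨fun f => ψ (mu1 χ f), fun f g => by
    rw [map_add, h.add _ _ (k f) (k g)]⟩, fun a f => by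
      simp only [map_smul, RingHom.id_apply]
      exact h.smul a _ (k f)⟩
  exact ⟨⟨L, cont_of_bd L (q := fun f => q (mu1 χ f)) (q1.comp (mu1 χ).continuous) (by simp [q2])
    fun f => hC _ (supp_mu1 χ f)⟩, fun _ => rfl⟩

theorem int_ut (g : GRP c) (Λ : TT D) : ∃ Φ : 𝓢(V × V, ℂ) →ₗ[ℂ] Completion D,
    (∀ G, Φ G = ∫ y, Ut c.Q y (Λ (Api4.sl y G))) ∧
      ∃ (m : ℕ) (C : ℝ), ∀ G, ‖Φ G‖ ≤ C * ST.sn _ ℂ m G := by
  have n : ∀ y v, ‖Ut c.Q y v‖ = ‖v‖ := fun y v => g.ug_norm _ _ _ v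
  have i : ∀ G, Integrable fun y => Ut c.Q y (Λ (Api4.sl y G)) := fun G =>
    (Api4.par_sch volume G Λ).1.norm.mono' (g.ut_cont continuous_id
      (Λ.continuous.comp (Api4.continuous_sl' G))).aestronglyMeasurable
      (.of_forall fun y => (n _ _).le)
  obtain ⟨C, N, C0, hC⟩ := ST.clm_sn_c Λ
  refine ⟨⟨⟨fun G => ∫ y, Ut c.Q y (Λ (Api4.sl y G)), fun G G' => ?_⟩, fun a G => ?_⟩,
    fun _ => rfl, N + (volume : Measure V).integrablePower,
    C * 2 ^ (N + (volume : Measure V).integrablePower) *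
      ∫ y : V, ((1 + ‖y‖) ^ (volume : Measure V).integrablePower)⁻¹, fun G => ?_⟩
  · simp only [map_add]
    exact integral_add (i G) (i G')
  · simp only [map_smul, RingHom.id_apply]
    exact integral_smul a _
  · refine (norm_integral_le_of_norm_le ((Api4.integrable_w volume).const_mul
      (C * 2 ^ (N + (volume : Measure V).integrablePower) *
        ST.sn _ ℂ (N + (volume : Measure V).integrablePower) G))
      (.of_forall fun y => ?_)).trans_eq ?_
    · rw [n]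
      refine (hC _).trans ((mul_le_mul_of_nonneg_left (Api4.sn_sl G y N
        (volume : Measure V).integrablePower) C0).trans_eq ?_)
      ring
    · rw [integral_const_mul]
      ring

theorem Loc0.extend (g : GRP c) {ψ : Sch → Completion D} (h : Loc0 c ψ) :
    ∃ φ : TT D, TC c φ ∧ ∀ f : Sch, HasCompactSupport f → φ f = ψ f := by
  obtain ⟨ρ0, a, -, -, b⟩ := Ap.ex_rho (volume : Measure V) (x := 0) univ_mem
  set ρ : Sch := sch fun z => (ρ0 z : ℂ) with hρ
  have r1 : HasCompactSupport ρ := Ap.cpt_sch (Ap.dc_cx a)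
  have r2 : ∀ z, ρ z = ρ0 z := Ap.sch_tst a
  obtain ⟨χ, c1, c2⟩ := ex_one r1
  obtain ⟨Λ, hΛ⟩ := h.cut c1
  obtain ⟨Φ, hΦ, m, C, hC⟩ := int_ut g Λ
  let L : Sch →ₗ[ℂ] Completion D := Φ ∘ₗ (Api4.tenE eA ρ).toLinearMap
  have hL : Continuous L := cont_of_bd L (q := fun f => C * ST.sn _ ℂ m (Api4.tenE eA ρ f))
    (continuous_const.mul ((ST.continuous_sn m).comp (Api4.tenE eA ρ).continuous)) (by simp)
    fun f => hC _
  have key : ∀ f : Sch, HasCompactSupport f → L f = ψ f := fun f hf => by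
    obtain ⟨χ', d1, d2⟩ := ex_one hf
    obtain ⟨Λ', hΛ'⟩ := h.cut d1
    have e := (Api4.par_sch volume (Api4.tenE eB ρ f) Λ').2
    have e1 : Api4.pint volume (Api4.tenE eB ρ f) = f := by
      ext z
      rw [Api4.pint_apply]
      change ∫ y, ρ (z - y) * f z = _
      rw [integral_mul_const, integral_sub_left_eq_self (fun y => ρ y) volume z]
      simp only [r2]
      rw [integral_complex_ofReal, b]
      simp
    rw [e1, hΛ', d2 f le_rfl] at e
    rw [e]
    refine (hΦ _).trans (integral_congr_ae (.of_forall fun y => ?_))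
    have s1 : tsupport (Api4.sl y (Api4.tenE eA ρ f)) ⊆ tsupport ρ :=
      tsupport_mul_subset_left (f := fun z => ρ z) (g := fun z => f (z + y))
    have s2 : tsupport (Api4.sl y (Api4.tenE eB ρ f)) ⊆ tsupport f :=
      tsupport_mul_subset_right (f := fun z => ρ (z - y)) (g := fun z => f z)
    change Ut c.Q y (Λ (Api4.sl y (Api4.tenE eA ρ f))) = Λ' (Api4.sl y (Api4.tenE eB ρ f))
    rw [hΛ, hΛ', c2 _ s1, d2 _ s2,
      h.tra y _ (r1.of_isClosed_subset (isClosed_tsupport _) s1)]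
    congr 1
    ext z
    change ρ (z - y) * f (z - y + y) = ρ (z - y) * f z
    rw [sub_add_cancel]
  refine ⟨⟨L, hL⟩, fun a f => ?_, key⟩
  refine DFunLike.congr_fun (ext_cs (φ := Ut c.Q a ∘L ⟨L, hL⟩) (ψ := ⟨L, hL⟩ ∘L ST.tsl a)
    fun f hf => ?_) f
  change Ut c.Q a (L f) = L (ST.tsl a f)
  rw [key f hf, key _ (cs_tsl hf a), h.tra a f hf]

end

section

variable {D : Type*} [NormedAddCommGroup D] [InnerProductSpace ℂ D] {c : Ctx D}
  {φ φ' ψ : TT D} {U U' : Completion D →L[ℂ] Completion D} {e e' : V ≃L[ℝ] V} {s : ℝ}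

/-- pairs that are local in the cut cones -/
def Lc (c : Ctx D) (φ φ' : TT D) : Prop := ∀ r, 0 < r → ∀ f : Sch, HasCompactSupport f →
  tsupport f ⊆ Rc r 0 → Pr (c.N (Rc r 0)) c.Om (φ f) (φ' (barL f))

theorem Lc.symm (h : Lc c φ φ') : Lc c φ' φ := fun r hr f h1 h2 => by
  have := h r hr (barL f) (by rwa [HasCompactSupport, supp_bar]) (by rwa [supp_bar])
  rw [bar_bar] at this
  exact this.symm

theorem Lc.zero : Lc c 0 0 := fun _ _ _ _ _ => Pr.zero

theorem Lc.add {ψ' : TT D} (h : Lc c φ φ') (h' : Lc c ψ ψ') : Lc c (φ + ψ) (φ' + ψ') :=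
  fun r hr f h1 h2 => (h r hr f h1 h2).add (h' r hr f h1 h2)

theorem Lc.smul (z : ℂ) (h : Lc c φ φ') : Lc c (z • φ) (star z • φ') :=
  fun r hr f h1 h2 => (h r hr f h1 h2).smul z

theorem Lc.tr (g : GRP c) (h : Lc c φ φ') (t : TC c φ) (t' : TC c φ') {r : ℝ} (hr : 0 < r) (y : V)
    {f : Sch} (h1 : HasCompactSupport f) (h2 : tsupport f ⊆ Rc r y) :
    Pr (c.N (Rc r y)) c.Om (φ f) (φ' (barL f)) := by
  have k := g.pr_ut (h r hr (ST.tsl (-y) f) (cs_tsl h1 _) fun z hz => by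
    simpa using mem_rc.1 (h2 (supp_tsl _ _ hz))) y (O' := Rc r y)
    fun z hz => mem_rc.2 (by simpa using hz)
  rwa [t, t', bar_tsl, tsl_tsl, tsl_tsl, add_neg_cancel, tsl_zero, tsl_zero] at k

/-- the partner is unique -/
theorem Lc.unique (t : T1 c) {φ'' : TT D} (h : Lc c φ φ') (h' : Lc c φ φ'') (k : TC c φ')
    (k' : TC c φ'') : φ' = φ'' := by
  refine sub_eq_zero.1 ((k.sub k').van (rc_open 1) (rc_ne one_pos) fun f h1 h2 => ?_)
  have a := h 1 one_pos (barL f) (by rwa [HasCompactSupport, supp_bar]) (by rwa [supp_bar])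
  have b := h' 1 one_pos (barL f) (by rwa [HasCompactSupport, supp_bar]) (by rwa [supp_bar])
  rw [bar_bar] at a b
  exact sub_eq_zero.2 (a.unique b
    (t.jc.cyc_sub t.grp null_va null_vb (by simp [md_ab]) (rc_sub one_pos)))

/-- symmetries that scale `K` -/
structure Sy (c : Ctx D) (U : Completion D →L[ℂ] Completion D) (e : V ≃L[ℝ] V) (s : ℝ) :
    Prop where
  ut : ∀ y, U * Ut c.Q y = Ut c.Q (e y) * U
  s0 : 0 < s
  be : ∀ z, be (e z) = s * be z
  ck : ∀ z, cK va (e z) = s • e (cK va z)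
  sk : ∀ r, U * c.SK r = c.SK (r / s) * U
  geo : ∀ r, 0 < r → ∃ r', 0 < r' ∧ ∃ y, ∀ z, e z ∈ Rc r 0 ↔ z ∈ Rc r' y
  pr : ∀ O O' ψ ψ', (∀ z ∈ O, e z ∈ O') → Pr (c.N O) c.Om ψ ψ' → Pr (c.N O') c.Om (U ψ) (U ψ')

theorem Sy.tc (y : Sy c U e s) (h : TC c φ) : TC c (ac U e φ) := fun a f => by
  obtain ⟨a, rfl⟩ := e.surjective a
  rw [ac_apply, ac_apply, pL_tsl, ← h, ← ContinuousLinearMap.mul_apply, ← y.ut]
  rfl

theorem Sy.lc (g : GRP c) (y : Sy c U e s) (h : Lc c φ φ') (t : TC c φ) (t' : TC c φ') :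
    Lc c (ac U e φ) (ac U e φ') := fun r hr f h1 h2 => by
  obtain ⟨r', r0, a, k⟩ := y.geo r hr
  exact y.pr _ _ _ _ (fun z hz => (k z).2 hz) (h.tr g t t' r0 a (cs_pL e h1)
    fun z hz => (k z).1 (h2 (supp_pL e f hz)))

theorem syS (g : GRP c) (x y : ℝ) : Sy c (Usc c.Q (exp x) (exp y)) (eS x y) (exp y) where
  ut a := g.sc_ut _ _ a (Real.exp_pos x) (Real.exp_pos y)
  s0 := Real.exp_pos y
  be z := by simp
  ck z := null_ext (by
      simp only [eS_apply, G1.al_cK, tx_scp, al_smul, al_scp, d2_smul, d2_smul_l, ← mul_assoc,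
        Real.mul_self_sqrt (mul_pos (Real.exp_pos x) (Real.exp_pos y)).le, mul_comm (exp y) (exp x)])
    (by simp [G1.be_cK]; ring) (by
      simp only [eS_apply, G1.tx_cK, tx_scp, be_scp, tx_smul]
      module)
  sk r := g.sc_S _ _ r (Real.exp_pos x) (Real.exp_pos y)
  geo r hr := ⟨r * exp y, mul_pos hr (Real.exp_pos y), 0, fun z => by
    have hx := Real.exp_pos x
    have hy := Real.exp_pos y
    simp only [G1.mem_Rc, eS_apply, be_scp, al_scp, mu, md_scp _ _ (mul_pos hx hy).le]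
    refine and_congr ⟨fun h => neg_of_mul_neg_right h hy.le, fun h => mul_neg_of_pos_of_neg hy h⟩
      (and_congr (by simp only [mul_assoc]) ?_)
    rw [← mul_pos_iff_of_pos_left hx (b := _ + r * exp y * _)]
    exact iff_of_eq (by congr 1; ring)⟩
  pr O O' ψ ψ' k h := g.pr_sc h (Real.exp_pos x) (Real.exp_pos y) k

theorem syG (g : GRP c) (w : R2) : Sy c (Ga c.Q w) (eG w) 1 where
  ut a := g.ga_ut w a
  s0 := one_pos
  be z := by simp
  ck z := null_ext (by
    simp [G1.al_cK, G1.be_cK, G1.tx_cK, d2_add, d2_add_l, d2_smul, d2_smul_l, d2_comm w]; ring)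
    (by simp [G1.be_cK]) (by
      simp only [eG_apply, G1.tx_cK, G1.be_cK, tx_gap, be_gap, one_smul]
      module)
  sk r := by simpa using g.ga_S w r
  geo r hr := ⟨r, hr, pt (-(d2 w w / (4 * r))) 0 ((2 * r)⁻¹ • w), fun z => by
    rw [mem_rc (y := pt _ _ _)]
    simp only [G1.mem_Rc, eG_apply, be_gap, al_gap, be_sub, be_pt, sub_zero, al_sub, al_pt]
    refine and_congr_right fun _ => and_congr_right fun _ => iff_of_eq ?_
    congr 1
    simp only [mu_eq, al_gap, be_gap, tx_gap, al_sub, be_sub, tx_sub, al_pt, be_pt, tx_pt, d2_add,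
      d2_add_l, d2_sub, d2_sub_l, d2_smul, d2_smul_l, d2_comm (tx z) w]
    field_simp
    ring⟩
  pr O O' ψ ψ' k h := g.pr_ga h w k

/-- the scalings act -/
def aS (c : Ctx D) (x y : ℝ) : TT D →ₗ[ℂ] TT D := ac (Usc c.Q (exp x) (exp y)) (eS x y)

/-- the null rotations act -/
def aG (c : Ctx D) (w : R2) : TT D →ₗ[ℂ] TT D := ac (Ga c.Q w) (eG w)

theorem aS_aS (g : GRP c) (x y x' y' : ℝ) : aS c x y (aS c x' y' φ) = aS c (x + x') (y + y') φ :=
  ac_mul (by
    rw [Real.exp_add, Real.exp_add]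
    exact g.sc _ _ _ _ (Real.exp_pos _) (Real.exp_pos _) (Real.exp_pos _) (Real.exp_pos _))
    fun z => by simp [scp_scp _ (Real.exp_pos _).le (Real.exp_pos _).le, Real.exp_add]

theorem aG_aG (g : GRP c) (v w : R2) : aG c v (aG c w φ) = aG c (v + w) φ :=
  ac_mul (g.ga v w) fun z => by simp [gap_gap]

theorem aS_aG (g : GRP c) (x y : ℝ) (w : R2) :
    aS c x y (aG c w φ) = aG c (exp ((x - y) / 2) • w) (aS c x y φ) :=
  ac_ac (by rw [← sqrt_ed]; exact g.sc_ga _ _ w (Real.exp_pos _) (Real.exp_pos _)) fun z => by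
    have a : exp x = exp ((x - y) / 2) * exp ((x + y) / 2) := by
      rw [← Real.exp_add]; congr 1; ring
    have b : exp ((x + y) / 2) = exp ((x - y) / 2) * exp y := by
      rw [← Real.exp_add]; congr 1; ring
    refine null_ext ?_ (by simp) ?_
    · simp only [eS_apply, eG_apply, al_scp, al_gap, tx_scp, be_scp, sqrt_ee, d2_smul, d2_smul_l]
      rw [a, b]
      ring
    · simp only [eS_apply, eG_apply, tx_scp, tx_gap, be_scp, sqrt_ee, b]
      module

/-- the scaling groups -/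
def Ws (c : Ctx D) (x y t : ℝ) : Completion D →L[ℂ] Completion D :=
  Usc c.Q (exp (x * t)) (exp (y * t))

theorem flS (g : GRP c) (x y : ℝ) : Fl (Ws c x y) (fun t => eS (x * t) (y * t)) (XS x y) where
  ug := g.ugSc x y
  e0 z := by simp
  ea s t z := by simp [scp_scp _ (Real.exp_pos _).le (Real.exp_pos _).le, mul_add, Real.exp_add]
  der := by
    have d : ∀ a : ℝ, HasDerivAt (fun t => exp (a * t)) a 0 := fun a => by
      simpa using ((hasDerivAt_id' (0 : ℝ)).const_mul a).exp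
    refine ((((d x).smul_const (alL.smulRight va)).fun_add ((d y).smul_const
      (beL.smulRight vb))).fun_add ((d ((x + y) / 2)).smul_const
        (tvL.comp txL))).congr_of_eventuallyEq (.of_forall fun t => ?_)
    ext1 z
    refine null_ext (by simp) (by simp) ?_
    simp [sqrt_ee]
    congr 2
    ring

theorem flM (g : GRP c) (i : Fin 2) : Fl (Mi c.Q i) (fun t => eG (t • e2 i)) (XM i) where
  ug := g.ugM i
  e0 z := by simp
  ea s t z := by simp [gap_gap, add_smul]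
  der := by
    have d := hasDerivAt_id' (0 : ℝ)
    refine ((((d.smul_const (XM i)).const_add 1).fun_add (((d.fun_pow 2).div_const 2).smul_const
      (beL.smulRight va))).congr_of_eventuallyEq (.of_forall fun t => ?_)).congr_deriv (by simp)
    ext1 z
    refine null_ext ?_ (by simp [XM]) (by simp [XM, smul_comm t])
    simp [XM, d2_smul, d2_smul_l]
    ring

theorem ws_bo : Ws c 1 (-1) = Bo c.Q := funext fun t => by simp [Ws, Bo]

variable {W : ℝ → Completion D →L[ℂ] Completion D} {ε : ℝ → V ≃L[ℝ] V} {X : V →L[ℝ] V}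

theorem TC.gn (h : TC c φ) (a : V) (f : Sch) :
    Gn (fun t => Ut c.Q (t • a)) (φ f) (I • φ (dS a f)) := by
  rw [Gn, smul_smul, Complex.I_mul_I, neg_one_smul]
  simpa only [h _ f] using der_tsl φ a f

end

section

variable {D : Type*} [NormedAddCommGroup D] [InnerProductSpace ℂ D] {c : Ctx D}
  {φ φ' ψ : TT D} {E E' : Submodule ℂ (TT D)}

/-- members of a family -/
structure Mb (c : Ctx D) (E : Submodule ℂ (TT D)) (φ : TT D) : Prop where
  tc : TC c φ
  par : ∃ φ' ∈ E, Lc c φ φ'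
  aS : ∀ x y, aS c x y φ ∈ E
  aG : ∀ w, aG c w φ ∈ E
  dS : ∀ x y f, Dm (Ws c x y) (φ f)
  dM : ∀ i f, Dm (Mi c.Q i) (φ f)

theorem Mb.mono (h : Mb c E φ) (k : E ≤ E') : Mb c E' φ :=
  ⟨h.tc, h.par.imp fun _ a => ⟨k a.1, a.2⟩, fun x y => k (h.aS x y), fun w => k (h.aG w), h.dS, h.dM⟩

theorem Mb.zero : Mb c E 0 :=
  ⟨.zero, ⟨0, E.zero_mem, .zero⟩, fun _ _ => by simp, fun _ => by simp, fun _ _ _ => dm_zero,
    fun _ _ => dm_zero⟩

theorem Mb.add (h : Mb c E φ) (h' : Mb c E ψ) : Mb c E (φ + ψ) := by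
  obtain ⟨a, a1, a2⟩ := h.par
  obtain ⟨b, b1, b2⟩ := h'.par
  exact ⟨h.tc.add h'.tc, ⟨a + b, E.add_mem a1 b1, a2.add b2⟩,
    fun x y => by rw [map_add]; exact E.add_mem (h.aS x y) (h'.aS x y),
    fun w => by rw [map_add]; exact E.add_mem (h.aG w) (h'.aG w),
    fun x y f => (h.dS x y f).add (h'.dS x y f), fun i f => (h.dM i f).add (h'.dM i f)⟩

theorem Mb.smul (z : ℂ) (h : Mb c E φ) : Mb c E (z • φ) := by
  obtain ⟨a, a1, a2⟩ := h.par
  exact ⟨h.tc.smul z, ⟨_, E.smul_mem _ a1, a2.smul z⟩,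
    fun x y => by rw [map_smul]; exact E.smul_mem _ (h.aS x y),
    fun w => by rw [map_smul]; exact E.smul_mem _ (h.aG w),
    fun x y f => (h.dS x y f).smul z, fun i f => (h.dM i f).smul z⟩

/-- families -/
structure Fam (c : Ctx D) (E : Submodule ℂ (TT D)) : Prop where
  fd : FiniteDimensional ℂ E
  mb : ∀ φ ∈ E, Mb c E φ

theorem Fam.sup' (h : Fam c E) [FiniteDimensional ℂ E'] (h' : ∀ φ ∈ E', Mb c (E ⊔ E') φ) :
    Fam c (E ⊔ E') := by
  haveI := h.fd
  refine ⟨inferInstance, fun φ hφ => ?_⟩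
  obtain ⟨a, a1, b, b1, rfl⟩ := Submodule.mem_sup.1 hφ
  exact ((h.mb a a1).mono le_sup_left).add (h' b b1)

theorem Fam.sup (h : Fam c E) (h' : Fam c E') : Fam c (E ⊔ E') :=
  haveI := h'.fd
  h.sup' fun φ hφ => (h'.mb φ hφ).mono le_sup_right

/-- the class -/
def WW (c : Ctx D) : Submodule ℂ (TT D) where
  carrier := {φ | ∃ E, Fam c E ∧ φ ∈ E}
  add_mem' := fun ⟨_, a, b⟩ ⟨_, a', b'⟩ => ⟨_, a.sup a', Submodule.add_mem_sup b b'⟩
  zero_mem' := ⟨⊥, ⟨inferInstance, fun φ h => by rw [Submodule.mem_bot] at h; exact h ▸ .zero⟩,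
    Submodule.zero_mem _⟩
  smul_mem' := fun z _ ⟨E, a, b⟩ => ⟨E, a, E.smul_mem z b⟩

theorem Fam.le (h : Fam c E) : E ≤ WW c := fun _ k => ⟨E, h, k⟩

theorem mb_W (h : φ ∈ WW c) : Mb c (WW c) φ :=
  let ⟨_, a, b⟩ := h
  (a.mb φ b).mono a.le

theorem hd_lc {A B : ℝ → TT D} {ψ' : TT D} (h : HD A ψ) (h' : HD B ψ')
    (k : ∀ t, Lc c (A t) (B t)) : Lc c ψ ψ' := fun r hr f h1 h2 =>
  Pr.deriv (l := 𝓝[≠] 0) le_rfl (.of_forall fun t => k t r hr f h1 h2) (h f) (h' _)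

/-- the generators of the scalings on distributions -/
def dl (c : Ctx D) (x y : ℝ) (φ : TT D) : TT D := dr fun t => aS c (x * t) (y * t) φ

/-- the generators of the null rotations on distributions -/
def mm (c : Ctx D) (i : Fin 2) (φ : TT D) : TT D := dr fun t => aG c (t • e2 i) φ

variable (g : GRP c)
include g

theorem Fam.dl (h : Fam c E) (k : φ ∈ E) (x y : ℝ) :
    dl c x y φ ∈ E ∧ HD (fun t => aS c (x * t) (y * t) φ) (dl c x y φ) :=
  haveI := h.fd
  (flS g x y).ex (fun _ => (h.mb φ k).aS _ _) ((h.mb φ k).dS x y)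

theorem Fam.mm (h : Fam c E) (k : φ ∈ E) (i : Fin 2) :
    mm c i φ ∈ E ∧ HD (fun t => aG c (t • e2 i) φ) (mm c i φ) :=
  haveI := h.fd
  (flM g i).ex (fun _ => (h.mb φ k).aG _) ((h.mb φ k).dM i)

theorem dl_W (k : φ ∈ WW c) (x y : ℝ) :
    dl c x y φ ∈ WW c ∧ HD (fun t => aS c (x * t) (y * t) φ) (dl c x y φ) :=
  let ⟨_, a, b⟩ := k
  ⟨a.le (a.dl g b x y).1, (a.dl g b x y).2⟩

theorem mm_W (k : φ ∈ WW c) (i : Fin 2) :
    mm c i φ ∈ WW c ∧ HD (fun t => aG c (t • e2 i) φ) (mm c i φ) :=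
  let ⟨_, a, b⟩ := k
  ⟨a.le (a.mm g b i).1, (a.mm g b i).2⟩

theorem gen_S (k : φ ∈ WW c) (x y : ℝ) (f : Sch) :
    I • gen (Ws c x y) (φ f) = dl c x y φ f - φ (vS (XS x y) f) :=
  (flS g x y).gn (dl_W g k x y).2 ((mb_W k).dS x y f)

theorem gen_M (k : φ ∈ WW c) (i : Fin 2) (f : Sch) :
    I • gen (Mi c.Q i) (φ f) = mm c i φ f - φ (vS (XM i) f) :=
  (flM g i).gn (mm_W g k i).2 ((mb_W k).dM i f)

theorem dl_lin (k : φ ∈ WW c) (k' : ψ ∈ WW c) (z : ℂ) (x y : ℝ) :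
    dl c x y (φ + z • ψ) = dl c x y φ + z • dl c x y ψ := by
  refine P352X.Pf.HD.dr_eq ?_
  simp only [map_add, map_smul]
  exact (dl_W g k x y).2.lin (dl_W g k' x y).2 z

theorem mm_lin (k : φ ∈ WW c) (k' : ψ ∈ WW c) (z : ℂ) (i : Fin 2) :
    mm c i (φ + z • ψ) = mm c i φ + z • mm c i ψ := by
  refine P352X.Pf.HD.dr_eq ?_
  simp only [map_add, map_smul]
  exact (mm_W g k i).2.lin (mm_W g k' i).2 z

theorem dl_lc (k : φ ∈ WW c) (k' : φ' ∈ WW c) (h : Lc c φ φ') (x y : ℝ) :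
    Lc c (dl c x y φ) (dl c x y φ') :=
  hd_lc (dl_W g k x y).2 (dl_W g k' x y).2 fun _ => (syS g _ _).lc g h (mb_W k).tc (mb_W k').tc

theorem mm_lc (k : φ ∈ WW c) (k' : φ' ∈ WW c) (h : Lc c φ φ') (i : Fin 2) :
    Lc c (mm c i φ) (mm c i φ') :=
  hd_lc (mm_W g k i).2 (mm_W g k' i).2 fun _ => (syG g _).lc g h (mb_W k).tc (mb_W k').tc

theorem aS_mm (k : φ ∈ WW c) (x y : ℝ) (i : Fin 2) :
    aS c x y (mm c i φ) = (exp ((x - y) / 2) : ℂ) • mm c i (aS c x y φ) := by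
  refine ((mm_W g k i).2.ac _ _).unique ?_
  have := (mm_W g ((mb_W k).aS x y) i).2.scale (exp ((x - y) / 2))
  simp only [mul_smul, ← aS_aG g] at this
  exact this

theorem aG_mm (k : φ ∈ WW c) (w : R2) (i : Fin 2) : aG c w (mm c i φ) = mm c i (aG c w φ) := by
  refine ((mm_W g k i).2.ac _ _).unique ?_
  have := (mm_W g ((mb_W k).aG w) i).2
  simp only [aG_aG g, add_comm _ w] at this
  simp only [← aG_aG g] at this
  exact this

omit g in
/-- maps that are linear on the class -/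
def mkL (F : TT D → TT D)
    (h : ∀ φ ψ (z : ℂ), φ ∈ WW c → ψ ∈ WW c → F (φ + z • ψ) = F φ + z • F ψ) :
    WW c →ₗ[ℂ] TT D where
  toFun x := F x
  map_add' x y := by simpa using h x y 1 x.2 y.2
  map_smul' z x := by
    have k : F 0 = 0 := by simpa using h 0 0 1 (zero_mem _) (zero_mem _)
    simpa [k] using h 0 x z (zero_mem _) x.2

/-- commutation with the scalings -/
theorem dl_comm {F : TT D → TT D}
    (h : ∀ φ ψ (z : ℂ), φ ∈ WW c → ψ ∈ WW c → F (φ + z • ψ) = F φ + z • F ψ) (k : φ ∈ WW c)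
    {x y a : ℝ} (e : ∀ t, aS c (x * t) (y * t) (F φ) =
      (exp (a * t) : ℂ) • F (aS c (x * t) (y * t) φ)) :
    dl c x y (F φ) = F (dl c x y φ) + (a : ℂ) • F φ := by
  obtain ⟨E, hE, k⟩ := k
  haveI := hE.fd
  have d : HasDerivAt (fun t => (exp (a * t) : ℂ)) a 0 := by
    simpa using ((hasDerivAt_id' (0 : ℝ)).const_mul a).exp.ofReal_comp
  exact (flS g x y).one (fun _ => (hE.mb φ k).aS _ _) ((hE.mb φ k).dS x y) k
    (mkL F h ∘ₗ Submodule.inclusion hE.le) d (by simp) e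

theorem dl_mm (k : φ ∈ WW c) (i : Fin 2) :
    dl c 0 1 (mm c i φ) = mm c i (dl c 0 1 φ) + ((-(1 / 2) : ℝ) : ℂ) • mm c i φ :=
  dl_comm g (fun _ _ z a b => mm_lin g a b z i) k fun t => by
    rw [aS_mm g k]
    congr 3
    ring

/-- new families -/
theorem new_W {F : TT D → TT D}
    (h : ∀ φ ψ (z : ℂ), φ ∈ WW c → ψ ∈ WW c → F (φ + z • ψ) = F φ + z • F ψ)
    (tc : ∀ φ ∈ WW c, TC c (F φ)) (lc : ∀ φ ∈ WW c, ∀ φ' ∈ WW c, Lc c φ φ' → Lc c (F φ) (F φ'))
    {a : ℝ} (hS : ∀ φ ∈ WW c, ∀ x y, aS c x y (F φ) = (exp (a * y) : ℂ) • F (aS c x y φ)) {b : ℝ}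
    (hG : ∀ φ ∈ WW c, ∀ w, aG c w (F φ) =
      F (aG c w φ) + ∑ i, ((b * w i : ℝ) : ℂ) • mm c i (aG c w φ))
    (k : φ ∈ WW c) : F φ ∈ WW c := by
  obtain ⟨E, hE, k⟩ := k
  haveI := hE.fd
  let T : E →ₗ[ℂ] TT D := mkL F h ∘ₗ Submodule.inclusion hE.le
  have m : ∀ ψ ∈ E, F ψ ∈ E ⊔ LinearMap.range T := fun ψ hψ =>
    Submodule.mem_sup_right ⟨⟨ψ, hψ⟩, rfl⟩
  refine ⟨_, hE.sup' (E' := LinearMap.range T) ?_, m φ k⟩
  rintro _ ⟨⟨ψ, hψ⟩, rfl⟩
  have w := hE.le hψ
  have q := hE.mb ψ hψ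
  obtain ⟨ψ', p1, p2⟩ := q.par
  refine ⟨tc ψ w, ⟨_, m ψ' p1, lc ψ w ψ' (hE.le p1) p2⟩, fun x y => ?_, fun v => ?_,
    fun x y f => ?_, fun i f => ?_⟩
  · exact (hS ψ w x y).symm ▸ Submodule.smul_mem _ _ (m _ (q.aS x y))
  · exact (hG ψ w v).symm ▸ Submodule.add_mem _ (m _ (q.aG v)) (Submodule.sum_mem _ fun i _ =>
      Submodule.smul_mem _ _ (Submodule.mem_sup_left (hE.mm g (q.aG v) i).1))
  · refine (flS g x y).two (fun _ => q.aS _ _) (q.dS x y) T T
      (a := fun t => (exp (a * (y * t)) : ℂ)) (b := fun _ => 0) ?_ (differentiableAt_const _)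
      (fun t => ?_) f
    · exact (((hasDerivAt_id' (0 : ℝ)).const_mul y).const_mul a).exp.ofReal_comp.differentiableAt
    · rw [zero_smul, add_zero]
      exact hS ψ w _ _
  · refine (flM g i).two (fun _ => q.aG _) (q.dM i) T
      (mkL (mm c i) (fun _ _ z a b => mm_lin g a b z i) ∘ₗ Submodule.inclusion hE.le)
      (a := fun _ => 1) (b := fun t => ((b * t : ℝ) : ℂ)) (differentiableAt_const _) ?_
      (fun t => ?_) f
    · exact ((hasDerivAt_id' (0 : ℝ)).const_mul b).ofReal_comp.differentiableAt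
    · rw [one_smul]
      refine (hG ψ w _).trans ?_
      rw [Finset.sum_eq_single i (fun j _ hj => by simp [e2, hj]) (by simp)]
      simp only [Pi.smul_apply, e2_self, smul_eq_mul, mul_one]
      rfl

end

end

end Vale.Agent.P352L.Pf
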