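import Vale.Agent.P352L.PF.A

/-!
# P352L, block PF: the operators `S` and `K` on the class (port of P352NA/PF)
-/

set_option linter.all false

open Set Filter Topology
open scoped SchwartzMap

namespace Vale.Agent.P352L.Pf

open Vale.Agent.P352X
open Vale.Agent.P352 Vale.Agent.P352.GF Vale.Agent.P352.H15
open Vale.Agent.P352NA.PF (AL Gen gen_of_eq)
open UniformSpace (Completion)
open Complex (I)
open Vale.Agent.P352X.TPD (TT)
open Vale.Agent.P352X.CA (Cn Nl Z0 e0)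
open Vale.Agent.P352X.KDa (dS mS barL)
open Vale.Agent.P352X.G1 (Hs)
open Real (exp)

noncomputable section

section

variable {D : Type*} [NormedAddCommGroup D] [InnerProductSpace ℂ D] {c : Ctx D}
  {φ : TT D} {f g : Sch} {y y' : V} {u u' : ℝ}

/-- the defect -/
def R0 (c : Ctx D) (φ : TT D) (f : Sch) : Completion D :=
  I • gen c.SK (φ f) - φ (KS f) - (2 : ℂ) • ∑ i, mm c i φ (mS (xL i) f)

/-- the defect with the centre `y` -/
def RY (c : Ctx D) (φ : TT D) (y : V) (f : Sch) : Completion D :=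
  Ut c.Q y (R0 c φ (ST.tsl (-y) f))

/-- the defect for `K(u)` -/
def R (c : Ctx D) (φ : TT D) (u : ℝ) : Sch → Completion D := RY c φ (u • vb)

variable (t : TA c) (h : φ ∈ WW c)
include t h

theorem dom {K : Set V} (hK : IsCompact K) (k : K ⊆ Hs 0) :
    (∀ f : Sch, tsupport f ⊆ K → Dm c.SK (φ f)) ∧ BD K fun f => ‖gen c.SK (φ f)‖ := by
  obtain ⟨s, r, r0, hr⟩ := G1.ex_cone hK k
  obtain ⟨C, hC⟩ := t.kd.a r r0
  obtain ⟨φ', -, p⟩ := (mb_W h).par
  have q : ∀ f : Sch, tsupport f ⊆ K → Dm c.SK (φ f) ∧ ‖gen c.SK (φ f)‖ ≤ C *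
      (‖φ (ST.tsl (s • va) f)‖ + ‖φ' (barL (ST.tsl (s • va) f))‖ +
        ‖dl c 1 (-1) φ (ST.tsl (s • va) f) - φ (vS (XS 1 (-1)) (ST.tsl (s • va) f))‖) :=
    fun f hf => by
    have b := (mb_W h).dS 1 (-1) (ST.tsl (s • va) f)
    have b' := gen_S t.grp h 1 (-1) (ST.tsl (s • va) f)
    rw [ws_bo] at b b'
    obtain ⟨a1, a2⟩ := hC _ _ (p r r0 _ (cs_tsl (hK.of_isClosed_subset (isClosed_tsupport _) hf) _)
      fun z hz => hr ⟨_, hf (supp_tsl _ _ hz), by simp⟩) b
    obtain ⟨a3, a4⟩ := a1.comm (t.grp.pa_S (-s))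
    rw [Pa, (mb_W h).tc, tsl_tsl, neg_smul, neg_add_cancel, tsl_zero] at a3 a4
    rw [← b', norm_smul, Complex.norm_I, one_mul]
    exact ⟨a3, by rwa [a4, Ut, t.grp.ug_norm]⟩
  exact ⟨fun f hf => (q f hf).1, _, by fun_prop, by simp, fun f hf => (q f hf).2⟩

theorem dm (hf : Ad 0 f) : Dm c.SK (φ f) := (dom t h hf.1 hf.2).1 f le_rfl

theorem gn_ky (hf : Ad (be y) f) :
    Gn (c.Ky y) (φ f) (Ut c.Q y (gen c.SK (φ (ST.tsl (-y) f)))) := by
  refine (t.grp.gn_Ky y).2 ?_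
  rw [t.grp.ut_apply, neg_add_cancel, t.grp.ut0, (mb_W h).tc]
  exact (dm t h (hf.tsl _ (by simp))).gn

theorem ry_eq (hf : Ad (be y) f) : RY c φ y f = I • gen (c.Ky y) (φ f) - φ (KY y f) -
    (2 : ℂ) • ∑ i, mm c i φ (mS (xL i) f - (tx y i : ℂ) • f) := by
  rw [RY, R0, map_sub, map_sub, map_smul, map_smul, map_sum, (gn_ky t h hf).gen_eq, (mb_W h).tc]
  simp only [fun i => (mb_W (mm_W t.grp h i).1).tc y, tsl_mS, xL_apply]
  rfl

theorem ry_a (hf : Ad 0 f) (s : ℝ) : RY c φ (s • va) f = R0 c φ f := by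
  have e : c.Ky (s • va) = c.SK := funext fun r => by
    rw [Base.Ky, ← Pa, t.grp.pa_S, Pa, mul_assoc, ← t.grp.ut, add_neg_cancel, t.grp.ut0, mul_one]
  rw [ry_eq t h (by simpa using hf), e, R0, show KY (s • va) f = KS f from
    SchwartzMap.ext fun z => by
      rw [KY_apply, KS_apply, show cK va (z - s • va) = cK va z from
        null_ext (by simp [G1.al_cK]) (by simp [G1.be_cK]) (by simp [G1.tx_cK])]
      simp]
  simp

theorem ry_x (hf : Ad 0 f) (x : R2) : RY c φ (tv x) f = R0 c φ f := by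
  have m := fun i => congrArg (-I • ·) (gen_M t.grp h i f)
  simp only [neg_I_I] at m
  have p : Gn (Pa c.Q) _ _ := (mb_W h).tc.gn va f
  have e : KY (tv x) f = KS f + (2 * x 0 : ℂ) • vS (XM 0) f + (2 * x 1 : ℂ) • vS (XM 1) f -
      (d2 x x : ℂ) • dS va f := by
    ext z
    rw [KY_apply, show cK va (z - tv x) = cK va z - (2 * d2 x (tx z)) • va - (2 * be z) • tv x +
      d2 x x • va from null_ext (by simp [G1.al_cK, d2_sub, d2_sub_l, d2_comm x]; ring)
        (by simp [G1.be_cK]) (by simp [G1.tx_cK, smul_sub]), tv_eq, d2_eq x (tx z)]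
    simp [KS_apply, vS_apply, dS_apply, XM]
    ring
  rw [ry_eq t h (by simpa using hf),
    (t.gen.ky x _ (dm t h hf) (fun i => (mb_W h).dM i f) p.dm).gen_eq, e, R0, p.gen_eq]
  simp only [Fin.sum_univ_two, m, map_add, map_sub, map_smul, ← Complex.coe_smul, tx_tv]
  push_cast
  match_scalars <;> simp [← mul_assoc] <;> ring_nf <;> simp

theorem ry_be (hf : Ad (be y) f) (e : be y' = be y) : RY c φ y' f = RY c φ y f := by
  have e' : y' = y + (al (y' - y) • va + tv (tx (y' - y))) :=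
    null_ext (by simp) (by simp [e]) (by simp)
  have k : Ad 0 (ST.tsl (-y) f) := hf.tsl _ (by simp)
  rw [RY.eq_def c φ y, ← ry_a t h k (al (y' - y)), RY.eq_def c φ (_ • va),
    ← ry_x t h (k.tsl _ (by simp)) (tx (y' - y)), RY.eq_def c φ (tv _), tsl_tsl, tsl_tsl,
    t.grp.ut_apply, t.grp.ut_apply, add_assoc, ← e', ← neg_add, ← neg_add, add_comm (tv _),
    add_comm _ y, ← e', RY]

theorem r_tra (hf : Ad u f) (a : V) :
    Ut c.Q a (R c φ u f) = R c φ (u + be a) (ST.tsl a f) := by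
  rw [R, R, ← ry_be t h (y' := a + u • vb) (hf.tsl a (by simp)) (by simp [add_comm]), RY, RY,
    t.grp.ut_apply, tsl_tsl, show -(a + u • vb) + a = -(u • vb) by abel]

theorem r_lin (hf : Ad u f) (hg : Ad u g) (a : ℂ) :
    R c φ u (f + a • g) = R c φ u f + a • R c φ u g := by
  have k := dm t h (hf.tsl (-(u • vb)) (u' := 0) (by simp))
  have k' := dm t h (hg.tsl (-(u • vb)) (u' := 0) (by simp))
  simp only [R, RY, R0, map_add, map_smul, gen_add k (k'.smul a), gen_smul a k', map_sub,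
    Fin.sum_univ_two]
  module

theorem r_bd {K : Set V} (hK : IsCompact K) (k : K ⊆ Hs u) : BD K fun f => ‖R c φ u f‖ := by
  obtain ⟨q, q1, q2, q3⟩ := (dom t h (hK.image (f := fun z => z - u • vb) (by fun_prop)) (by
    rintro _ ⟨z, hz, rfl⟩
    simpa [Hs] using k hz)).2
  have ct := (ST.tsl (E := V) (-(u • vb))).continuous
  refine ⟨fun f => q (ST.tsl (-(u • vb)) f) + ‖φ (KS (ST.tsl (-(u • vb)) f))‖ +
    ‖(2 : ℂ) • ∑ i, mm c i φ (mS (xL i) (ST.tsl (-(u • vb)) f))‖, ((q1.comp ct).add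
      ((φ ∘L KS).continuous.comp ct).norm).add (Continuous.norm (Continuous.fun_const_smul
        (continuous_finset_sum _ fun i _ => (mm c i φ ∘L mS (xL i)).continuous.comp ct) _)),
    by simp [q2], fun f hf => ?_⟩
  beta_reduce
  rw [R, RY, Ut, t.grp.ug_norm, R0]
  refine norm_sub_le_of_le (norm_sub_le_of_le ?_ le_rfl) le_rfl
  rw [norm_smul, Complex.norm_I, one_mul]
  exact q3 _ fun z hz => ⟨_, hf (supp_tsl _ _ hz), by simp⟩

theorem r_aff (E : EE c.toBase) {lo : ℝ} (hf : Ad lo f) (hi : ℝ) :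
    ∃ A B, ∀ u ∈ Ioo lo hi, R c φ u f = A + (u : ℂ) • B := by
  have k : ∀ u ∈ Ioo lo hi, Ad (be (u • vb)) f := fun u hu => hf.le (by simpa using hu.1.le)
  have p : Gn (Pb c.Q) _ _ := (mb_W h).tc.gn vb f
  obtain ⟨k0, k1, e⟩ := E lo hi (φ f) (fun u hu => (gn_ky t h (k u hu)).dm) p.dm
  refine ⟨I • k0 - φ (KS f) - (2 : ℂ) • ∑ i, mm c i φ (mS (xL i) f),
    I • k1 - φ ((4 : ℂ) • vS (XS 0 1) f + (8 : ℂ) • f), fun u hu => ?_⟩
  rw [R, ry_eq t h (k u hu), e u hu, p.gen_eq, KY_b]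
  simp only [map_add, map_sub, map_smul, tx_smul, tx_vb, smul_zero, Pi.zero_apply,
    Complex.ofReal_zero, zero_smul, sub_zero]
  push_cast
  match_scalars <;> simp [← mul_assoc] <;> ring_nf <;> simp

end

section

variable {D : Type*} [NormedAddCommGroup D] [InnerProductSpace ℂ D] {c : Ctx D}
  {φ φ' σ κ : TT D} {f g : Sch} {u u' : ℝ}

theorem loc0_of {ψ : Sch → Completion D} {F : ℝ → Sch → Completion D}
    (e : ∀ u f, Ad u f → ψ f = F u f)
    (lin : ∀ u f g (a : ℂ), Ad u f → Ad u g → F u (f + a • g) = F u f + a • F u g)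
    (bd : ∀ u K, IsCompact K → K ⊆ Hs u → BD K fun f => ‖F u f‖)
    (tra : ∀ u a f, Ad u f → Ut c.Q a (F u f) = F (u + be a) (ST.tsl a f)) : Loc0 c ψ := by
  have l : ∀ (f g : Sch) (a : ℂ), HasCompactSupport f → HasCompactSupport g →
      ψ (f + a • g) = ψ f + a • ψ g := fun f g a hf hg => by
    obtain ⟨u, h1, h2⟩ := ((ev_ad hf).and (ev_ad hg)).exists
    rw [e u f h1, e u g h2, ← lin u f g a h1 h2, e u _ (h1.lin h2 a)]
  have z : HasCompactSupport (0 : Sch) := HasCompactSupport.zero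
  have k0 : ψ 0 = 0 := by simpa using l 0 0 1 z z
  refine ⟨fun f g hf hg => by simpa using l f g 1 hf hg, fun a f hf => by
    simpa [k0] using l 0 f a z hf, fun a f hf => ?_, fun K hK => ?_⟩
  · obtain ⟨u, h⟩ := (ev_ad hf).exists
    rw [e u f h, tra u a f h, e _ _ (h.tsl a le_rfl)]
  · obtain ⟨u, h⟩ := (G1.ex_hs hK).exists
    obtain ⟨q, q1, q2, q3⟩ := bd u K hK h
    refine ⟨q, q1, q2, fun f hf => ?_⟩
    beta_reduce
    rw [e u f ⟨hK.of_isClosed_subset (isClosed_tsupport _) hf, hf.trans h⟩]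
    exact q3 f hf

/-- the relation that defines `S` and `K` -/
structure Kr (c : Ctx D) (φ σ κ : TT D) : Prop where
  ts : TC c σ
  tk : TC c κ
  eq : ∀ f, Ad 0 f → R0 c φ f = (2 : ℂ) • σ (mS beL f) + κ f

theorem Kr.r (h : Kr c φ σ κ) (hf : Ad u f) :
    R c φ u f = (2 : ℂ) • σ (mS beL f - (u : ℂ) • f) + κ f := by
  rw [R, RY, h.eq _ (hf.tsl _ (by simp)), map_add, map_smul, h.ts, h.tk, tsl_mS, tsl_tsl,
    add_neg_cancel, tsl_zero]
  simp

theorem Kr.unique (g : GRP c) {σ' κ' : TT D} (h : Kr c φ σ κ) (h' : Kr c φ σ' κ') :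
    σ = σ' ∧ κ = κ' := by
  have e : ∀ f, Ad (-1) f → σ f = σ' f := fun f hf => by
    have a := (h.r hf).symm.trans (h'.r hf)
    have b := (h.eq f (hf.le (by norm_num))).symm.trans (h'.eq f (hf.le (by norm_num)))
    simp only [map_sub, map_smul] at a
    push_cast at a
    exact smul_right_injective _ (two_ne_zero (α := ℂ)) (by
      beta_reduce
      linear_combination (norm := module) a - b)
  have s : σ = σ' := sub_eq_zero.1 ((h.ts.sub h'.ts).van (O := Hs (-1))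
    (isOpen_lt cont_be continuous_const) ⟨(-2 : ℝ) • vb, by simp [Hs]⟩
    fun f a b => sub_eq_zero.2 (e f ⟨a, b⟩))
  refine ⟨s, sub_eq_zero.1 ((h.tk.sub h'.tk).van hs_open hs_ne fun f a b => sub_eq_zero.2 ?_)⟩
  have := (h.eq f ⟨a, b⟩).symm.trans (h'.eq f ⟨a, b⟩)
  rwa [s, add_right_inj] at this

open Classical in
/-- the pair `(S φ, K φ)` -/
def sk (c : Ctx D) (φ : TT D) : TT D × TT D :=
  if h : ∃ p : TT D × TT D, Kr c φ p.1 p.2 then h.choose else 0

/-- the operator `S` -/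
def sg (c : Ctx D) (φ : TT D) : TT D := (sk c φ).1

/-- the operator `K` -/
def kp (c : Ctx D) (φ : TT D) : TT D := (sk c φ).2

theorem Kr.sk (h : Kr c φ σ κ) : Kr c φ (sg c φ) (kp c φ) := by
  have k : ∃ p : TT D × TT D, Kr c φ p.1 p.2 := ⟨(σ, κ), h⟩
  rw [sg, kp, Pf.sk, dif_pos k]
  exact k.choose_spec

variable (t : TA c) (E : EE c.toBase) (h : φ ∈ WW c)
include t E h

theorem slope : ∃ σ : TT D, TC c σ ∧ ∀ u u' f, Ad u f → Ad u' f →
    R c φ u f - R c φ u' f = ((u' : ℂ) - u) • (2 : ℂ) • σ f := by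
  choose! w hw using fun (f : Sch) (hf : HasCompactSupport f) => (ev_ad hf).exists
  have A : ∀ u u' f, Ad u f → Ad u' f →
      R c φ u f - R c φ u' f = ((u' : ℂ) - u) • (R c φ (w f) f - R c φ (w f + 1) f) :=
    fun u u' f h1 h2 => by
      have h3 : tsupport f ⊆ Hs (min (min u u') (w f)) := fun z hz => show be z < _ from
        lt_min (lt_min (h1.2 hz) (h2.2 hz)) ((hw f h1.1).2 hz)
      obtain ⟨lo, l1, l2⟩ := (((G1.ev_hs h1.1 h3).filter_mono nhdsWithin_le_nhds).and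
        (self_mem_nhdsWithin (s := Iio (min (min u u') (w f))))).exists
      simp only [lt_min_iff] at l2
      obtain ⟨A, B, e⟩ := r_aff t h E ⟨h1.1, l1⟩ (max (max u u') (w f + 1) + 1)
      have m : ∀ v, lo < v → v ≤ max (max u u') (w f + 1) → _ := fun v a b =>
        e v ⟨a, b.trans_lt (lt_add_one _)⟩
      rw [m u l2.1.1 (by simp), m u' l2.1.2 (by simp), m (w f) l2.2 (by simp),
        m (w f + 1) (by linarith [l2.2]) (by simp)]
      push_cast
      module
  obtain ⟨ν, n1, n2⟩ := Loc0.extend t.grp (loc0_of (c := c)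
    (ψ := fun f => R c φ (w f) f - R c φ (w f + 1) f) (F := fun u f => R c φ u f - R c φ (u + 1) f)
    (fun u f hf => by simp [A u (u + 1) f hf (hf.le (by simp))])
    (fun u f g a hf hg => by
      rw [r_lin t h hf hg, r_lin t h (hf.le (by simp)) (hg.le (by simp))]
      module)
    (fun u K hK k => (r_bd t h hK k).sub (r_bd t h hK fun z hz => (k hz).trans (lt_add_one u)))
    fun u a f hf => by rw [map_sub, r_tra t h hf, r_tra t h (hf.le (by simp)), add_right_comm])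
  refine ⟨(1 / 2 : ℂ) • ν, n1.smul _, fun u u' f h1 h2 => ?_⟩
  rw [A u u' f h1 h2, ← n2 f h1.1, ContinuousLinearMap.smul_apply, smul_smul (2 : ℂ)]
  simp

theorem ex_kr : Kr c φ (sg c φ) (kp c φ) := by
  obtain ⟨σ, n, A⟩ := slope t E h
  choose! w hw using fun (f : Sch) (hf : HasCompactSupport f) => (ev_ad hf).exists
  have e : ∀ u f, Ad u f → R c φ (w f) f - (2 : ℂ) • σ (mS beL f - (w f : ℂ) • f) =
      R c φ u f - (2 : ℂ) • σ (mS beL f - (u : ℂ) • f) := fun u f hf => by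
    rw [eq_add_of_sub_eq (A _ _ f (hw f hf.1) hf)]
    simp only [map_sub, map_smul]
    module
  obtain ⟨κ, k1, k2⟩ := Loc0.extend t.grp (loc0_of (c := c) e
    (fun u f g a hf hg => by
      rw [r_lin t h hf hg]
      simp only [map_add, map_smul, map_sub, smul_add]
      module)
    (fun u K hK k => (r_bd t h hK k).sub ⟨_, (Continuous.fun_const_smul (σ.continuous.comp
      ((mS beL).continuous.sub (continuous_const_smul (u : ℂ)))) _).norm, by simp,
        fun _ _ => le_rfl⟩)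
    fun u a f hf => by
      rw [map_sub, r_tra t h hf, map_smul, n, mS_tsl]
      simp only [map_add, map_smul, map_sub, beL_apply]
      push_cast
      module)
  refine Kr.sk (σ := σ) (κ := κ) ⟨n, k1, fun f hf => ?_⟩
  rw [k2 f hf.1, e 0 f hf, R, RY, zero_smul, neg_zero, tsl_zero, t.grp.ut0]
  simp

theorem sk_eq (k : Kr c φ σ κ) : sg c φ = σ ∧ kp c φ = κ := (ex_kr t E h).unique t.grp k

theorem sk_lin {ψ : TT D} (h' : ψ ∈ WW c) (z : ℂ) :
    sg c (φ + z • ψ) = sg c φ + z • sg c ψ ∧ kp c (φ + z • ψ) = kp c φ + z • kp c ψ := by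
  have a := ex_kr t E h
  have b := ex_kr t E h'
  refine sk_eq t E (add_mem h ((WW c).smul_mem z h'))
    ⟨a.ts.add (b.ts.smul z), a.tk.add (b.tk.smul z), fun f hf => ?_⟩
  have a1 := a.eq f hf
  have b1 := b.eq f hf
  simp only [R0, mm_lin t.grp h h', ContinuousLinearMap.add_apply, ContinuousLinearMap.smul_apply,
    gen_add (dm t h hf) ((dm t h' hf).smul z), gen_smul z (dm t h' hf), Fin.sum_univ_two] at a1 b1 ⊢
  linear_combination (norm := module) a1 + z • b1

omit E in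
theorem r0_pr (h' : φ' ∈ WW c) (k : Lc c φ φ') {r : ℝ} (hr : 0 < r) (h1 : HasCompactSupport f)
    (h2 : tsupport f ⊆ Rc r 0) :
    Pr (c.N (Rc r 0)) c.Om (R0 c φ f) (R0 c φ' (barL f)) := by
  obtain ⟨r', r1, k1⟩ := G1.ex_rc h1 h2
  have s : ∀ g : Sch, tsupport g ⊆ tsupport f → HasCompactSupport g := fun g hg =>
    h1.of_isClosed_subset (isClosed_tsupport _) hg
  rw [R0, R0, ← bar_KS]
  simp only [← bar_mS]
  refine ((t.kd.a2 r' r _ _ hr.le r1 (k r' (hr.trans r1) f h1 k1) (ws_bo (c := c) ▸ (mb_W h).dS _ _ _)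
    (ws_bo (c := c) ▸ (mb_W h').dS _ _ _)).1.sub
      (k r hr _ (s _ (supp_KS f)) ((supp_KS f).trans h2))).sub ?_
  exact (Pr.sum _ fun i _ => mm_lc t.grp h h' k i r hr _ (s _ (supp_mS _ f))
    ((supp_mS _ f).trans h2)).csmul 2

theorem sk_lc (h' : φ' ∈ WW c) (k : Lc c φ φ') :
    Lc c (sg c φ) (sg c φ') ∧ Lc c (kp c φ) (kp c φ') := by
  have a := ex_kr t E h
  have b := ex_kr t E h'
  have ad : ∀ {r} {f : Sch}, HasCompactSupport f → tsupport f ⊆ Rc r 0 → Ad 0 f :=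
    fun h1 h2 => ⟨h1, fun z hz => (G1.mem_Rc.1 (h2 hz)).1⟩
  have ab : ∀ {u} {f : Sch}, Ad u f → Ad u (barL f) := fun hf => hf.sub (supp_bar _).le
  have s : Lc c (sg c φ) (sg c φ') := fun r hr f h1 h2 => by
    obtain ⟨v, v1, v2, v3⟩ := (((G1.ev_hs h1 (ad h1 h2).2).and (continuousAt_const.eventually_lt
      (f := fun _ => (0 : ℝ)) (g := fun v : ℝ => 1 + 2 * r * v) (by fun_prop) (by simp)) |>.filter_mono
        nhdsWithin_le_nhds).and (self_mem_nhdsWithin (s := Iio 0))).exists.imp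
          fun _ q => and_assoc.1 q
    have v0 : 0 < -v := neg_pos.2 v3
    have r0 : 0 < r / (1 + 2 * r * v) := div_pos hr v2
    have G := rc_shift hr r0 v0 (by
      rw [show 1 - 2 * r * (-v) = 1 + 2 * r * v by ring, div_mul_cancel₀ _ v2.ne'])
    have p := t.grp.pr_ut (r0_pr t h h' k r0 (cs_tsl h1 (-(v • vb))) fun z hz => by
      have := (G _).2 ⟨h2 (supp_tsl _ _ hz), by rw [neg_neg]; exact v1 (supp_tsl _ _ hz)⟩
      simpa using this) (v • vb) (O' := Rc r 0) fun z hz => ((G _).1 (by simpa using hz)).1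
    have q := (p.sub (r0_pr t h h' k hr h1 h2)).csmul (-2 * v)⁻¹
    have v4 : (v : ℂ) ≠ 0 := Complex.ofReal_ne_zero.2 (ne_of_lt v3)
    refine q.cast ?_ ?_
    · rw [← RY, ← R, a.r ⟨h1, v1⟩, a.eq f (ad h1 h2), map_sub, map_smul]
      push_cast
      match_scalars <;> field_simp <;> ring
    · rw [bar_tsl, ← RY, ← R, b.r (ab ⟨h1, v1⟩), b.eq _ (ab (ad h1 h2)), map_sub, map_smul]
      push_cast
      match_scalars <;> field_simp <;> ring
  refine ⟨s, fun r hr f h1 h2 => ?_⟩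
  have p := (r0_pr t h h' k hr h1 h2).sub ((s r hr _ ((ad h1 h2).sub (supp_mS beL f)).1
    ((supp_mS beL f).trans h2)).csmul 2)
  rw [a.eq f (ad h1 h2), b.eq _ (ab (ad h1 h2)), bar_mS] at p
  simpa using p

end

section

variable {D : Type*} [NormedAddCommGroup D] [InnerProductSpace ℂ D] {c : Ctx D}
  {φ ψ : TT D} {f : Sch} {U : Completion D →L[ℂ] Completion D} {e : V ≃L[ℝ] V} {s : ℝ}

theorem Sy.be_pL (y : Sy c U e s) (f : Sch) : pL e (mS beL f) = (s : ℂ) • mS beL (pL e f) := by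
  rw [← mS_smul]
  exact pL_mS (fun z => by simp [y.be]) f

theorem Sy.ks (y : Sy c U e s) (f : Sch) : pL e (KS f) = (s : ℂ) • KS (pL e f) := by
  ext z
  rw [pL_apply, KS_apply, SchwartzMap.smul_apply, KS_apply, show ⇑(pL e f) = f ∘ e from rfl,
    e.comp_right_fderiv, y.ck, y.be]
  simp
  ring

theorem Sy.ad (y : Sy c U e s) (hf : Ad 0 f) : Ad 0 (pL e f) :=
  ⟨cs_pL e hf.1, fun z hz => by
    have : P352X.be (e z) < 0 := hf.2 (supp_pL e f hz)
    rw [y.be] at this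
    exact neg_of_mul_neg_right this y.s0.le⟩

theorem Sy.gn (y : Sy c U e s) {v : Completion D} (h : Dm c.SK v) :
    gen c.SK (U v) = (s : ℂ) • U (gen c.SK v) :=
  (h.gn.scale U s fun r => by
    rw [← ContinuousLinearMap.mul_apply, ← ContinuousLinearMap.mul_apply U, y.sk,
      mul_div_cancel_left₀ _ y.s0.ne']).gen_eq

variable (t : TA c) (E : EE c.toBase) (h : φ ∈ WW c)
include t E h

theorem r0_ac (y : Sy c U e s) (hf : Ad 0 f) : R0 c (ac U e φ) f =
    (2 : ℂ) • ac U e (sg c φ) (mS beL f) + (s : ℂ) • ac U e (kp c φ) f +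
      (2 : ℂ) • ∑ i, ((s : ℂ) • U (mm c i φ (mS (xL i) (pL e f))) -
        mm c i (ac U e φ) (mS (xL i) f)) := by
  have a := congrArg U ((ex_kr t E h).eq _ (y.ad hf))
  simp only [R0, ac_apply, y.gn (dm t h (y.ad hf)), y.ks, y.be_pL, map_sub, map_add, map_smul,
    Fin.sum_univ_two] at a ⊢
  linear_combination (norm := module) (s : ℂ) • a

theorem sk_aS (x y : ℝ) : sg c (aS c x y φ) = aS c x y (sg c φ) ∧
    kp c (aS c x y φ) = (exp y : ℂ) • aS c x y (kp c φ) := by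
  have k := ex_kr t E h
  have q := syS t.grp x y
  refine sk_eq t E ((mb_W h).aS x y) ⟨q.tc k.ts, (q.tc k.tk).smul _, fun f hf => ?_⟩
  refine (r0_ac t E h q hf).trans ?_
  rw [Finset.sum_eq_zero fun i _ => ?_, smul_zero, add_zero]
  · rfl
  have a := DFunLike.congr_fun (aS_mm t.grp h x y i) (mS (xL i) f)
  rw [aS, ac_apply, pL_mS (l' := exp ((x + y) / 2) • xL i) (fun z => by simp [sqrt_ee]), mS_smul,
    map_smul, map_smul, ContinuousLinearMap.smul_apply] at a
  have b : (exp ((x + y) / 2) : ℂ) = exp ((x - y) / 2) * exp y := by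
    rw [← Complex.ofReal_mul, ← Real.exp_add]
    congr 2
    ring
  rw [b, mul_smul] at a
  exact sub_eq_zero.2 (smul_right_injective _ (Complex.ofReal_ne_zero.2 (Real.exp_pos _).ne') a)

theorem sk_aG (w : R2) : sg c (aG c w φ) = aG c w (sg c φ) - ∑ i, (w i : ℂ) • mm c i (aG c w φ) ∧
    kp c (aG c w φ) = aG c w (kp c φ) := by
  have k := ex_kr t E h
  have q := syG t.grp w
  have m := fun i => (mb_W (mm_W t.grp ((mb_W h).aG w) i).1).tc.smul (w i)
  refine sk_eq t E ((mb_W h).aG w) ⟨(q.tc k.ts).sub (by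
    rw [Fin.sum_univ_two]; exact (m 0).add (m 1)), q.tc k.tk, fun f hf => ?_⟩
  refine (r0_ac t E h q hf).trans ?_
  have a : ∀ i, Ga c.Q w (mm c i φ (mS (xL i) (pL (eG w) f))) =
      mm c i (aG c w φ) (mS (xL i) f) - (w i : ℂ) • mm c i (aG c w φ) (mS beL f) := fun i => by
    rw [← aG_mm t.grp h, aG, ac_apply, ac_apply, q.be_pL,
      pL_mS (l' := xL i + w i • beL) (fun z => by simp [mul_comm]), mS_add, mS_smul]
    simp
  simp only [a, Fin.sum_univ_two, ContinuousLinearMap.sub_apply, ContinuousLinearMap.add_apply,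
    ContinuousLinearMap.smul_apply, aG, Complex.ofReal_one]
  module

theorem kp_aS (x y : ℝ) : aS c x y (kp c φ) = (exp (-1 * y) : ℂ) • kp c (aS c x y φ) := by
  rw [(sk_aS t E h x y).2, smul_smul, ← Complex.ofReal_mul, ← Real.exp_add]
  simp

theorem sg_W : sg c φ ∈ WW c :=
  new_W t.grp (fun _ _ z a b => (sk_lin t E a b z).1) (fun _ a => (ex_kr t E a).ts)
    (fun _ a _ b k => (sk_lc t E a b k).1) (a := 0)
    (fun _ a x y => by simp [(sk_aS t E a x y).1]) (b := 1)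
    (fun _ a w => by simp [(sk_aG t E a w).1]) h

theorem kp_W : kp c φ ∈ WW c :=
  new_W t.grp (fun _ _ z a b => (sk_lin t E a b z).2) (fun _ a => (ex_kr t E a).tk)
    (fun _ a _ b k => (sk_lc t E a b k).2) (fun _ a x y => kp_aS t E a x y) (b := 0)
    (fun _ a w => by simp [(sk_aG t E a w).2]) h

theorem dl_sg : dl c 0 1 (sg c φ) = sg c (dl c 0 1 φ) := by
  simpa using dl_comm t.grp (fun _ _ z a b => (sk_lin t E a b z).1) h (x := 0) (y := 1) (a := 0)
    fun r => by simp [(sk_aS t E h _ _).1]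

theorem dl_kp : dl c 0 1 (kp c φ) = kp c (dl c 0 1 φ) - kp c φ := by
  simpa [sub_eq_add_neg] using dl_comm t.grp (fun _ _ z a b => (sk_lin t E a b z).2) h (x := 0)
    (y := 1) (a := -1) fun r => by rw [kp_aS t E h, one_mul]

end

end

end Vale.Agent.P352L.Pf
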